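import Vale.Agent.P011.E6I.H553.Sym
import Vale.Agent.P011.E6.ExM2
import Vale.Agent.P011.E6I.Cj

/-!
The frame in the coordinates in which the cubic element belongs to `D`.
-/

open Matrix

namespace Vale.Agent.P011.E6I

open Vale.Agent.P011.MPQ Vale.Agent.P011.D4 Vale.Agent.P011.D4.Oct Vale.Agent.P011.E6
open Vale.Agent.P011.E6.Alb

section field

variable {K : Type} [Field K] [CharZero K] {a b c : Kˣ} {z : Matrix (Fin 3) (Fin 3) K}

omit [CharZero K] in
theorem comm_mul_sym {Y T : Matrix (Fin 3) (Fin 3) K} (hY : Y * z = z * Y)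
    (hT : z * T = T * zᵀ) : z * (Y * T) = Y * T * zᵀ := by
  rw [← Matrix.mul_assoc, ← hY, Matrix.mul_assoc, hT, Matrix.mul_assoc]

omit [CharZero K] in
theorem ofF_inj {T T' : Matrix (Fin 3) (Fin 3) K} (hT : Tᵀ = T) (hT' : T'ᵀ = T')
    (h : (ofF T : Alb a b c) = ofF T') : T = T' := by
  have h1 := congrArg mat h
  rw [mat_ofF hT, mat_ofF hT'] at h1
  exact tm_inj h1

omit [CharZero K] in
theorem ofF_add (S T : Matrix (Fin 3) (Fin 3) K) :
    (ofF (S + T) : Alb a b c) = ofF S + ofF T := by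
  apply Alb.ext <;> simp [ofF, add_smul]

omit [CharZero K] in
theorem ofF_smul (t : K) (S : Matrix (Fin 3) (Fin 3) K) :
    (ofF (t • S) : Alb a b c) = t • ofF S := by
  apply Alb.ext <;> simp [ofF, mul_smul]

/-- The coordinates in the frame. -/
theorem exists_lin (h0 : z.trace = 0) (hd : dz z ≠ 0) {S T : Matrix (Fin 3) (Fin 3) K}
    (hS : z * S = S * zᵀ) (hT : z * T = T * zᵀ) (hdT : T.det ≠ 0) :
    ∃ c0 c1 c2 : K, S = c0 • T + c1 • (z * T) + c2 • (z * (z * T)) := by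
  obtain ⟨Y, hY, rfl⟩ := exists_quot hS hT hdT
  obtain ⟨c0, c1, c2, hc⟩ := exists_coeff h0 hd hY
  refine ⟨c0, c1, c2, ?_⟩
  rw [hc]
  simp only [Matrix.add_mul, Matrix.smul_mul, Matrix.one_mul, Matrix.mul_assoc]

omit [CharZero K] in
/-- The cubic norm on `V`. -/
theorem cub_inV {x : Alb a b c} (hx : InV x) : cub x = H64.herN (mat x) := by
  rw [H64.cub_eq, hx.vec, Matrix.zero_mul, Matrix.zero_mul]
  simp

/-- The frame in the coordinates in which the cubic element has coefficients in the field. -/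
theorem frame_ofF (hab : Aniso a b) (h0 : z.trace = 0) (hd : dz z ≠ 0)
    {m : (Matrix (Fin 3) (Fin 3) (Qt a b))ˣ} {y : Matrix (Fin 3) (Fin 3) (Qt a b)}
    (hm : (m : Matrix (Fin 3) (Fin 3) (Qt a b)) * y = tm a b z * m)
    {v x x' : Alb a b c} (hv : InV v) (hx : InV x) (hx' : InV x') (hxy : mat x = y * mat v)
    (hxy' : mat x' = y * mat x) (hcv : cub v ≠ 0) :
    ∃ T : Matrix (Fin 3) (Fin 3) K, Tᵀ = T ∧ z * T = T * zᵀ ∧ T.det ≠ 0 ∧
      ∀ κ, act m κ v = ofF T ∧ act m κ x = ofF (z * T) ∧ act m κ x' = ofF (z * (z * T)) := by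
  have e1 : ∀ s s' : Alb a b c, mat s' = y * mat s →
      (m : Matrix (Fin 3) (Fin 3) (Qt a b)) * mat s' *
        (m : Matrix (Fin 3) (Fin 3) (Qt a b))ᴴ =
      tm a b z * ((m : Matrix (Fin 3) (Fin 3) (Qt a b)) * mat s *
        (m : Matrix (Fin 3) (Fin 3) (Qt a b))ᴴ) := by
    intro s s' h
    rw [h, ← Matrix.mul_assoc, hm]
    simp only [Matrix.mul_assoc]
  have hS := H64.conj_isHermitian (H64.mat_isHermitian v)
    (m : Matrix (Fin 3) (Fin 3) (Qt a b))
  have hS' := H64.conj_isHermitian (H64.mat_isHermitian x)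
    (m : Matrix (Fin 3) (Fin 3) (Qt a b))
  obtain ⟨T, hT, hzT, hST⟩ := exists_T h0 hd hS (by
    have h1 := e1 v x hxy
    have h2 := hS'.eq
    rw [h1, Matrix.conjTranspose_mul, hS.eq] at h2
    exact h2.symm)
  have hT1 : (z * T)ᵀ = z * T := by rw [Matrix.transpose_mul, hT, hzT]
  have hT2 : (z * (z * T))ᵀ = z * (z * T) := by
    rw [Matrix.transpose_mul, hT1, Matrix.mul_assoc, ← hzT]
  refine ⟨T, hT, hzT, ?_, fun κ => ⟨act_eq_ofF hv hT hST κ, act_eq_ofF hx hT1 ?_ κ,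
    act_eq_ofF hx' hT2 ?_ κ⟩⟩
  · have h3 := H64.herN_mul two_ne_zero hab (m : Matrix (Fin 3) (Fin 3) (Qt a b)) (mat v)
      (H64.mat_isHermitian v)
    rw [hST, herN_tm hT, ← cub_inV hv] at h3
    rw [h3]
    exact mul_ne_zero (nu_ne_zero hab m) hcv
  · rw [e1 v x hxy, hST, tm_mul]
  · rw [e1 x x' hxy', e1 v x hxy, hST, tm_mul, tm_mul]

end field

section nf

variable {k L : Type} [Field k] [NumberField k] [Field L] [NumberField L] [Algebra k L]
  {ρ : L ≃ₐ[k] L} {lam : kˣ} {a b c : kˣ}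

omit [NumberField L] in
theorem exists_pz (H : Hyp ρ lam a b c) {z : Matrix (Fin 3) (Fin 3) L} (hz : InD0 ρ lam z) :
    ∃ p : k, algebraMap k L p = pz z := by
  apply H.fix
  rw [pz, map_div₀, map_neg, D0_trace (D0_mul hz hz), map_ofNat]

omit [NumberField L] in
theorem exists_qz (H : Hyp ρ lam a b c) {z : Matrix (Fin 3) (Fin 3) L} (hz : InD0 ρ lam z) :
    ∃ p : k, algebraMap k L p = qz z := by
  apply H.fix
  rw [qz, map_neg, D0_det hz]

/-- The elements of `D` which commute with `z` are polynomials in `z` over the ground field. -/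
theorem exists_coeff_k (H : Hyp ρ lam a b c) {z y : Matrix (Fin 3) (Fin 3) L}
    (hz : InD0 ρ lam z) (hy : InD0 ρ lam y) (h0 : z.trace = 0) (hd : dz z ≠ 0)
    (h : y * z = z * y) : ∃ y0 y1 y2 : k,
      y = algebraMap k L y0 • (1 : Matrix (Fin 3) (Fin 3) L) + algebraMap k L y1 • z +
        algebraMap k L y2 • z ^ 2 := by
  have e1 := eq_prj h0 hd h
  have e2 : y = (dz z)⁻¹ • prj z y := by
    rw [← e1, smul_smul, inv_mul_cancel₀ hd, one_smul]
  obtain ⟨p, hp⟩ := exists_pz H hz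
  obtain ⟨q, hq⟩ := exists_qz H hz
  obtain ⟨t0, ht0⟩ := H.fix (D0_trace hy)
  obtain ⟨t1, ht1⟩ := H.fix (D0_trace (D0_mul hy hz))
  obtain ⟨t2, ht2⟩ := H.fix (D0_trace (D0_mul hy (D0_mul hz hz)))
  rw [prj, dz, ← hp, ← hq, ← ht0, ← ht1, ← ht2, smul_add, smul_add, smul_smul, smul_smul,
    smul_smul] at e2
  refine ⟨(-4 * p ^ 3 - 27 * q ^ 2)⁻¹ * ((-4 * p ^ 3 - 9 * q ^ 2) * t0 + 6 * p * q * t1 -
      4 * p ^ 2 * t2), (-4 * p ^ 3 - 27 * q ^ 2)⁻¹ * (6 * p * q * t0 + 2 * p ^ 2 * t1 +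
      9 * q * t2), (-4 * p ^ 3 - 27 * q ^ 2)⁻¹ * (-4 * p ^ 2 * t0 + 9 * q * t1 -
      6 * p * t2), ?_⟩
  rw [pow_two z]
  simp only [map_mul, map_add, map_sub, map_neg, map_pow, map_inv₀, map_ofNat]
  exact e2

omit [NumberField k] [NumberField L] in
/-- The map `ph` on the symmetric matrices over the field. -/
theorem ph_ofF {T : Matrix (Fin 3) (Fin 3) L} (hT : Tᵀ = T) :
    ph ρ lam (ofF T : AlbL L a b c) =
      ofF ((up L lam : L) • (u0 L lam * T.map ρ * (u0 L lam)ᵀ)) := by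
  have h1 : (amap ρ (ofF T : AlbL L a b c)) = ofF (T.map ρ) := by
    apply Alb.ext <;> simp [amap, ofF, omap_smul, omap_one]
  have h2 : (T.map ρ)ᵀ = T.map ρ := by
    conv_rhs => rw [← hT]
    rfl
  rw [ph_eq_cj, h1, cj_ofF _ _ h2, ofF_smul]

omit [NumberField k] [NumberField L] in
theorem det_u0_ne : (u0 L lam).det ≠ 0 := by
  intro h
  have h1 : (u0 L lam).det * (w0 L lam).det = 1 := by
    rw [← Matrix.det_mul, u0_mul_w0, Matrix.det_one]
  rw [h, zero_mul] at h1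
  exact zero_ne_one h1

omit [NumberField k] in
/-- The quotient of the two symmetric matrices belongs to `D`. -/
theorem quot_inD0 {z Y C T : Matrix (Fin 3) (Fin 3) L} (h0 : z.trace = 0) (hd : dz z ≠ 0)
    (hY : Y * z = z * Y) (hC : C * z = z * C) (hdT : T.det ≠ 0)
    (h1 : (up L lam : L) • (u0 L lam * T.map ρ * (u0 L lam)ᵀ) = C * T)
    (h2 : (up L lam : L) • (u0 L lam * (Y * T).map ρ * (u0 L lam)ᵀ) = C * (Y * T)) :
    InD0 ρ lam Y := by
  have e : (Y * T).map ρ = Y.map ρ * T.map ρ := map_mul' (ρ : L →+* L) Y T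
  rw [e, ← Matrix.mul_assoc C, comm_comm h0 hd hC hY, Matrix.mul_assoc Y, ← h1,
    Matrix.mul_smul] at h2
  have h3 := smul_right_injective _ (up L lam).ne_zero h2
  have h4 : (T.map ρ * (u0 L lam)ᵀ).det ≠ 0 := by
    have h5 : (T.map ρ).det = ρ T.det := (RingHom.map_det (ρ : L →+* L) T).symm
    rw [Matrix.det_mul, Matrix.det_transpose, h5]
    exact mul_ne_zero ((map_ne_zero ρ).2 hdT) det_u0_ne
  have h6 : IsUnit (T.map ρ * (u0 L lam)ᵀ) :=
    (Matrix.isUnit_iff_isUnit_det _).2 (isUnit_iff_ne_zero.2 h4)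
  have h7 : u0 L lam * Y.map ρ * (T.map ρ * (u0 L lam)ᵀ) =
      Y * u0 L lam * (T.map ρ * (u0 L lam)ᵀ) := by
    simpa only [Matrix.mul_assoc] using h3
  exact (h6.mul_right_cancel h7).symm

end nf

end Vale.Agent.P011.E6I
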