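import Vale.Agent.P011.E6.Ids
import Vale.Agent.P011.E6.Act

/-!
The quaternionic hermitian matrices: products of matrices in terms of the adjoint and of the
cross product.
-/

open Matrix

namespace Vale.Agent.P011.E6I

open Vale.Agent.P011.MPQ Vale.Agent.P011.D4 Vale.Agent.P011.D4.Oct Vale.Agent.P011.E6
open Vale.Agent.P011.E6.Alb

section alb

variable {F : Type} [Field F] {a b c : Fˣ}

theorem q_ms (x : Qt a b) : x * star x = nrd x • (1 : Qt a b) := by
  apply QuaternionAlgebra.ext <;>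
    simp only [QuaternionAlgebra.re_mul, QuaternionAlgebra.imI_mul, QuaternionAlgebra.imJ_mul,
      QuaternionAlgebra.imK_mul, QuaternionAlgebra.re_star, QuaternionAlgebra.imI_star,
      QuaternionAlgebra.imJ_star, QuaternionAlgebra.imK_star, nrd, QuaternionAlgebra.re_smul,
      QuaternionAlgebra.imI_smul, QuaternionAlgebra.imJ_smul, QuaternionAlgebra.imK_smul,
      QuaternionAlgebra.re_one, QuaternionAlgebra.imI_one, QuaternionAlgebra.imJ_one,
      QuaternionAlgebra.imK_one, smul_eq_mul] <;>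
    ring

theorem q_sm (x : Qt a b) : star x * x = nrd x • (1 : Qt a b) := by
  apply QuaternionAlgebra.ext <;>
    simp only [QuaternionAlgebra.re_mul, QuaternionAlgebra.imI_mul, QuaternionAlgebra.imJ_mul,
      QuaternionAlgebra.imK_mul, QuaternionAlgebra.re_star, QuaternionAlgebra.imI_star,
      QuaternionAlgebra.imJ_star, QuaternionAlgebra.imK_star, nrd, QuaternionAlgebra.re_smul,
      QuaternionAlgebra.imI_smul, QuaternionAlgebra.imJ_smul, QuaternionAlgebra.imK_smul,
      QuaternionAlgebra.re_one, QuaternionAlgebra.imI_one, QuaternionAlgebra.imJ_one,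
      QuaternionAlgebra.imK_one, smul_eq_mul] <;>
    ring

theorem q_mms (x y : Qt a b) : y * x * star x = nrd x • y := by
  rw [mul_assoc, q_ms, mul_smul_comm, mul_one]

theorem q_msm (x y : Qt a b) : y * star x * x = nrd x • y := by
  rw [mul_assoc, q_sm, mul_smul_comm, mul_one]

theorem qstar_smul (t : F) (x : Qt a b) : star (t • x) = t • star x := by
  ext <;> simp

theorem qadd_star (x : Qt a b) : x + star x = (2 * x.re) • (1 : Qt a b) := by
  apply QuaternionAlgebra.ext
  · simp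
    ring
  · simp
  · simp
  · simp

theorem re_mul_comm (x y : Qt a b) : (x * y).re = (y * x).re := by
  simp only [QuaternionAlgebra.re_mul]
  ring

theorem re_cyc (x y z : Qt a b) : (x * y * z).re = (y * z * x).re := by
  rw [mul_assoc x, re_mul_comm]

theorem mma00 (d1 d2 d3 : F) (p1 p2 p3 : Qt a b) :
    d1 • (1 : Qt a b) * ((d2 * d3 - nrd p1) • (1 : Qt a b)) +
      p3 * star (star (p1 * p2) - d3 • p3) +
      star p2 * (star (p3 * p1) - d2 • p2) =
      ((d1 * d2 * d3 - d1 * nrd p1 - d2 * nrd p2 - d3 * nrd p3 + 2 * (p1 * p2 * p3).re) • (1 : Qt a b)) := by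
  have h := qadd_star (p3 * p1 * p2)
  rw [re_cyc p3 p1 p2] at h
  simp only [star_sub, star_star, star_mul, qstar_smul, mul_sub, smul_mul_assoc, mul_smul_comm,
    mul_one, one_mul, ← mul_assoc, q_ms, q_sm, q_mms, q_msm] at h ⊢
  linear_combination (norm := module) h

theorem mma01 (d1 d2 d3 : F) (p1 p2 p3 : Qt a b) :
    d1 • (1 : Qt a b) * (star (p1 * p2) - d3 • p3) +
      p3 * ((d3 * d1 - nrd p2) • (1 : Qt a b)) +
      star p2 * star (star (p2 * p3) - d1 • p1) =
      0 := by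
  simp only [star_sub, star_star, star_mul, qstar_smul, mul_sub, smul_mul_assoc, mul_smul_comm,
    mul_one, one_mul, ← mul_assoc, q_ms, q_sm, q_mms, q_msm]
  module

theorem mma02 (d1 d2 d3 : F) (p1 p2 p3 : Qt a b) :
    d1 • (1 : Qt a b) * star (star (p3 * p1) - d2 • p2) +
      p3 * (star (p2 * p3) - d1 • p1) +
      star p2 * ((d1 * d2 - nrd p3) • (1 : Qt a b)) =
      0 := by
  simp only [star_sub, star_star, star_mul, qstar_smul, mul_sub, smul_mul_assoc, mul_smul_comm,
    mul_one, one_mul, ← mul_assoc, q_ms, q_sm, q_mms, q_msm]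
  module

theorem mma10 (d1 d2 d3 : F) (p1 p2 p3 : Qt a b) :
    star p3 * ((d2 * d3 - nrd p1) • (1 : Qt a b)) +
      d2 • (1 : Qt a b) * star (star (p1 * p2) - d3 • p3) +
      p1 * (star (p3 * p1) - d2 • p2) =
      0 := by
  simp only [star_sub, star_star, star_mul, qstar_smul, mul_sub, smul_mul_assoc, mul_smul_comm,
    mul_one, one_mul, ← mul_assoc, q_ms, q_sm, q_mms, q_msm]
  module

theorem mma11 (d1 d2 d3 : F) (p1 p2 p3 : Qt a b) :
    star p3 * (star (p1 * p2) - d3 • p3) +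
      d2 • (1 : Qt a b) * ((d3 * d1 - nrd p2) • (1 : Qt a b)) +
      p1 * star (star (p2 * p3) - d1 • p1) =
      ((d1 * d2 * d3 - d1 * nrd p1 - d2 * nrd p2 - d3 * nrd p3 + 2 * (p1 * p2 * p3).re) • (1 : Qt a b)) := by
  have h := qadd_star (p1 * p2 * p3)
  simp only [star_sub, star_star, star_mul, qstar_smul, mul_sub, smul_mul_assoc, mul_smul_comm,
    mul_one, one_mul, ← mul_assoc, q_ms, q_sm, q_mms, q_msm] at h ⊢
  linear_combination (norm := module) h

theorem mma12 (d1 d2 d3 : F) (p1 p2 p3 : Qt a b) :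
    star p3 * star (star (p3 * p1) - d2 • p2) +
      d2 • (1 : Qt a b) * (star (p2 * p3) - d1 • p1) +
      p1 * ((d1 * d2 - nrd p3) • (1 : Qt a b)) =
      0 := by
  simp only [star_sub, star_star, star_mul, qstar_smul, mul_sub, smul_mul_assoc, mul_smul_comm,
    mul_one, one_mul, ← mul_assoc, q_ms, q_sm, q_mms, q_msm]
  module

theorem mma20 (d1 d2 d3 : F) (p1 p2 p3 : Qt a b) :
    p2 * ((d2 * d3 - nrd p1) • (1 : Qt a b)) +
      star p1 * star (star (p1 * p2) - d3 • p3) +
      d3 • (1 : Qt a b) * (star (p3 * p1) - d2 • p2) =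
      0 := by
  simp only [star_sub, star_star, star_mul, qstar_smul, mul_sub, smul_mul_assoc, mul_smul_comm,
    mul_one, one_mul, ← mul_assoc, q_ms, q_sm, q_mms, q_msm]
  module

theorem mma21 (d1 d2 d3 : F) (p1 p2 p3 : Qt a b) :
    p2 * (star (p1 * p2) - d3 • p3) +
      star p1 * ((d3 * d1 - nrd p2) • (1 : Qt a b)) +
      d3 • (1 : Qt a b) * star (star (p2 * p3) - d1 • p1) =
      0 := by
  simp only [star_sub, star_star, star_mul, qstar_smul, mul_sub, smul_mul_assoc, mul_smul_comm,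
    mul_one, one_mul, ← mul_assoc, q_ms, q_sm, q_mms, q_msm]
  module

theorem mma22 (d1 d2 d3 : F) (p1 p2 p3 : Qt a b) :
    p2 * star (star (p3 * p1) - d2 • p2) +
      star p1 * (star (p2 * p3) - d1 • p1) +
      d3 • (1 : Qt a b) * ((d1 * d2 - nrd p3) • (1 : Qt a b)) =
      ((d1 * d2 * d3 - d1 * nrd p1 - d2 * nrd p2 - d3 * nrd p3 + 2 * (p1 * p2 * p3).re) • (1 : Qt a b)) := by
  have h := qadd_star (p2 * p3 * p1)
  rw [← re_cyc p1 p2 p3] at h
  simp only [star_sub, star_star, star_mul, qstar_smul, mul_sub, smul_mul_assoc, mul_smul_comm,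
    mul_one, one_mul, ← mul_assoc, q_ms, q_sm, q_mms, q_msm] at h ⊢
  linear_combination (norm := module) h


/-- The element belongs to the hermitian matrices over the quaternions. -/
def InV (x : Alb a b c) : Prop := x.x1.snd = 0 ∧ x.x2.snd = 0 ∧ x.x3.snd = 0

theorem InV.add {x y : Alb a b c} (hx : InV x) (hy : InV y) : InV (x + y) := by
  obtain ⟨h1, h2, h3⟩ := hx
  obtain ⟨h4, h5, h6⟩ := hy
  refine ⟨?_, ?_, ?_⟩ <;> simp [*]

theorem InV.sub {x y : Alb a b c} (hx : InV x) (hy : InV y) : InV (x - y) := by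
  obtain ⟨h1, h2, h3⟩ := hx
  obtain ⟨h4, h5, h6⟩ := hy
  refine ⟨?_, ?_, ?_⟩ <;> simp [*]

theorem InV.smul {x : Alb a b c} (t : F) (hx : InV x) : InV (t • x) := by
  obtain ⟨h1, h2, h3⟩ := hx
  refine ⟨?_, ?_, ?_⟩ <;> simp [*]

theorem InV.adj {x : Alb a b c} (hx : InV x) : InV (Alb.adj x) := by
  obtain ⟨h1, h2, h3⟩ := hx
  refine ⟨?_, ?_, ?_⟩ <;> simp [Alb.adj, *]

theorem InV.cross {x y : Alb a b c} (hx : InV x) (hy : InV y) : InV (Alb.cross x y) := by
  obtain ⟨h1, h2, h3⟩ := hx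
  obtain ⟨h4, h5, h6⟩ := hy
  refine ⟨?_, ?_, ?_⟩ <;> simp [Alb.cross, *]

theorem eq_of_mat {x y : Alb a b c} (hx : InV x) (hy : InV y) (h : mat x = mat y) : x = y := by
  apply H64.ext_mat_vec h
  obtain ⟨h1, h2, h3⟩ := hx
  obtain ⟨h4, h5, h6⟩ := hy
  simp [Alb.vec, *]

theorem mat_mul_adj {x : Alb a b c} (hx : InV x) :
    mat x * mat (adj x) = cub x • (1 : Matrix (Fin 3) (Fin 3) (Qt a b)) := by
  obtain ⟨d1, d2, d3, ⟨p1, q1⟩, ⟨p2, q2⟩, ⟨p3, q3⟩⟩ := x
  obtain ⟨h1, h2, h3⟩ := hx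
  simp only at h1 h2 h3
  subst h1 h2 h3
  have e1 : ∀ t : F, algebraMap F (Qt a b) t = t • 1 := fun t => Algebra.algebraMap_eq_smul_one t
  have hn : nrd (0 : Qt a b) = 0 := by simp [nrd]
  have hc : cub (⟨d1, d2, d3, ⟨p1, 0⟩, ⟨p2, 0⟩, ⟨p3, 0⟩⟩ : Alb a b c) =
      d1 * d2 * d3 - d1 * nrd p1 - d2 * nrd p2 - d3 * nrd p3 + 2 * (p1 * p2 * p3).re := by
    simp only [cub, Oct.norm, hn, mul_zero, sub_zero, bil_eq]
    simp
  have hm : mat (⟨d1, d2, d3, ⟨p1, 0⟩, ⟨p2, 0⟩, ⟨p3, 0⟩⟩ : Alb a b c) =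
      !![d1 • (1 : Qt a b), p3, star p2; star p3, d2 • (1 : Qt a b), p1;
        p2, star p1, d3 • (1 : Qt a b)] := by
    simp only [mat, e1]
  have hz : ∀ t : F, ∀ p q : Qt a b, p * q + t • (star (0 : Qt a b) * 0) = p * q := fun t p q => by
    rw [mul_zero, smul_zero, add_zero]
  have ha : mat (adj (⟨d1, d2, d3, ⟨p1, 0⟩, ⟨p2, 0⟩, ⟨p3, 0⟩⟩ : Alb a b c)) =
      !![(d2 * d3 - nrd p1) • (1 : Qt a b), star (p1 * p2) - d3 • p3,
          star (star (p3 * p1) - d2 • p2);
        star (star (p1 * p2) - d3 • p3), (d3 * d1 - nrd p2) • (1 : Qt a b),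
          star (p2 * p3) - d1 • p1;
        star (p3 * p1) - d2 • p2, star (star (p2 * p3) - d1 • p1),
          (d1 * d2 - nrd p3) • (1 : Qt a b)] := by
    simp only [mat, adj, e1, Oct.norm, hn, mul_zero, sub_zero, Oct.fst_sub, Oct.fst_star,
      Oct.fst_mul, Oct.fst_smul, hz, star_zero, smul_zero, add_zero]
  rw [hm, ha, hc]
  apply Matrix.ext
  intro i j
  rw [Matrix.mul_apply, Fin.sum_univ_three, Matrix.smul_apply]
  fin_cases i <;> fin_cases j
  · exact (mma00 d1 d2 d3 p1 p2 p3).trans rfl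
  · exact (mma01 d1 d2 d3 p1 p2 p3).trans (smul_zero _).symm
  · exact (mma02 d1 d2 d3 p1 p2 p3).trans (smul_zero _).symm
  · exact (mma10 d1 d2 d3 p1 p2 p3).trans (smul_zero _).symm
  · exact (mma11 d1 d2 d3 p1 p2 p3).trans rfl
  · exact (mma12 d1 d2 d3 p1 p2 p3).trans (smul_zero _).symm
  · exact (mma20 d1 d2 d3 p1 p2 p3).trans (smul_zero _).symm
  · exact (mma21 d1 d2 d3 p1 p2 p3).trans (smul_zero _).symm
  · exact (mma22 d1 d2 d3 p1 p2 p3).trans rfl

theorem mat_sub' (x y : Alb a b c) : mat (x - y) = mat x - mat y := by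
  have h : x - y = x + (-1 : F) • y := by rw [neg_one_smul, sub_eq_add_neg]
  rw [h, H64.mat_add, H64.mat_smul, neg_one_smul, ← sub_eq_add_neg]

theorem mat_cross_add [NeZero (2 : F)] {x y : Alb a b c} (hx : InV x) (hy : InV y) :
    mat y * mat (adj x) + mat x * mat (cross x y) =
      tf (adj x) y • (1 : Matrix (Fin 3) (Fin 3) (Qt a b)) := by
  have h1 := mat_mul_adj (hx.add hy)
  have h2 := mat_mul_adj (hx.sub hy)
  have h3 := mat_mul_adj hx
  have h4 := mat_mul_adj hy
  have e : x - y = x + (-1 : F) • y := by rw [neg_one_smul, sub_eq_add_neg]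
  rw [e, adj_add, cub_add, adj_smul, cross_smul_right, tf_smul_right, tf_smul_right,
    cub_smul, H64.mat_add, H64.mat_add, H64.mat_add, H64.mat_smul, H64.mat_smul,
    H64.mat_smul] at h2
  rw [adj_add, cub_add, H64.mat_add, H64.mat_add, H64.mat_add] at h1
  have h5 : (2 : F) • (mat y * mat (adj x) + mat x * mat (cross x y)) =
      (2 : F) • (tf (adj x) y • (1 : Matrix (Fin 3) (Fin 3) (Qt a b))) := by
    simp only [add_mul, mul_add, smul_mul_assoc, mul_smul_comm] at h1 h2
    linear_combination (norm := module) h1 - h2 - (2 : F) • h4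
  exact smul_right_injective _ (two_ne_zero : (2 : F) ≠ 0) h5

/-- The product `x y x`. -/
theorem mat_mul_mul [NeZero (2 : F)] {x y : Alb a b c} (hx : InV x) (hy : InV y)
    (hc : cub x ≠ 0) : mat x * mat y * mat x = mat (tf x y • x - cross (adj x) y) := by
  have h1 := mat_cross_add hx.adj hy
  rw [adj_adj, H64.mat_smul, mul_smul_comm, tf_smul_left] at h1
  have h2 := congrArg (fun m => mat x * m) h1
  simp only [mul_add, mul_smul_comm, mul_one] at h2
  rw [← mul_assoc (mat x) (mat (adj x)), mat_mul_adj hx, smul_mul_assoc, one_mul,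
    ← mul_assoc (mat x) (mat y)] at h2
  apply smul_right_injective _ hc
  rw [mat_sub', H64.mat_smul]
  simp only
  linear_combination (norm := module) h2

/-- The element `v` times the square. -/
def sqv (v x : Alb a b c) : Alb a b c := tf x (adj v) • x - cross (adj x) (adj v)

/-- The dual element. -/
def duv (v x : Alb a b c) : Alb a b c := tf (adj v) x • adj v - cub v • cross v x

/-- The element `v` times the cube. -/
def cuv (v x : Alb a b c) : Alb a b c := tf x (duv v x) • x - cross (adj x) (duv v x)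

theorem InV.sqv {v x : Alb a b c} (hv : InV v) (hx : InV x) : InV (sqv v x) :=
  (hx.smul _).sub (hx.adj.cross hv.adj)

theorem InV.duv {v x : Alb a b c} (hv : InV v) (hx : InV x) : InV (duv v x) :=
  (hv.adj.smul _).sub ((hv.cross hx).smul _)

theorem InV.cuv {v x : Alb a b c} (hv : InV v) (hx : InV x) : InV (cuv v x) :=
  (hx.smul _).sub (hx.adj.cross (hv.duv hx))

theorem mat_sqv [NeZero (2 : F)] {v x : Alb a b c} (hv : InV v) (hx : InV x) (hcx : cub x ≠ 0)
    {z : Matrix (Fin 3) (Fin 3) (Qt a b)} (hz : mat x = z * mat v) :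
    mat (sqv v x) = cub v • (z * mat x) := by
  rw [sqv, ← mat_mul_mul hx hv.adj hcx]
  rw [hz, mul_assoc z, mat_mul_adj hv, mul_smul_comm, mul_one, smul_mul_assoc]

theorem mat_cuv [NeZero (2 : F)] {v x : Alb a b c} (hv : InV v) (hx : InV x) (hcv : cub v ≠ 0)
    (hcx : cub x ≠ 0) {z : Matrix (Fin 3) (Fin 3) (Qt a b)} (hz : mat x = z * mat v) :
    mat (cuv v x) = cub v ^ 2 • (z * (z * mat x)) := by
  have h1 : mat (adj v) * mat x * mat (adj v) = mat (duv v x) := by
    rw [mat_mul_mul hv.adj hx (by rw [cub_adj]; exact pow_ne_zero 2 hcv), adj_adj,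
      cross_smul_left, duv]
  rw [cuv, ← mat_mul_mul hx (hv.duv hx) hcx, ← h1]
  have h2 : mat x * mat (adj v) = cub v • z := by
    rw [hz, mul_assoc z, mat_mul_adj hv, mul_smul_comm, mul_one]
  have h3 : mat x * (mat (adj v) * mat x * mat (adj v)) * mat x =
      (mat x * mat (adj v)) * (mat x * mat (adj v)) * mat x := by
    simp only [mul_assoc]
  rw [h3, h2]
  simp only [smul_mul_assoc, mul_smul_comm, smul_smul, mul_assoc, sq]

end alb

end Vale.Agent.P011.E6I
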