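import Vale.Agent.P011.E6I.H553.Fra
import Vale.Agent.P011.E6I.H637.Conj

/-!
Normal form of a frame: the cubic element is conjugate to an element of `D` of trace zero.
-/

open Matrix

namespace Vale.Agent.P011.E6I

open Vale.Agent.P011.MPQ Vale.Agent.P011.D4 Vale.Agent.P011.D4.Oct Vale.Agent.P011.E6
open Vale.Agent.P011.E6.Alb

section nf

variable {k L : Type} [Field k] [NumberField k] [Field L] [NumberField L] [Algebra k L]
  {ρ : L ≃ₐ[k] L} {lam : kˣ} {a b c : kˣ}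

omit [NumberField k] [NumberField L] in
theorem smulQ_one_comm (t : L) (m : MQ L a b) : m * (t • (1 : MQ L a b)) = t • m := by
  rw [Matrix.mul_smul, Matrix.mul_one]

/-- Normal form of a frame. -/
theorem frm_normal (H : Hyp ρ lam a b c) {h : AlbL L a b c ≃ₗ[L] AlbL L a b c}
    (hg : Frm ρ lam h) :
    ∃ (z : MQ L a b) (m : (MQ L a b)ˣ) (z1 : Matrix (Fin 3) (Fin 3) L) (p q : k)
      (v x y : AlbL L a b c) (t0 t1 t2 : L),
      InD ρ lam z ∧ InD ρ lam (m : MQ L a b) ∧ InD0 ρ lam z1 ∧ z1.trace = 0 ∧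
      (∀ t : L, z1 ≠ t • (1 : Matrix (Fin 3) (Fin 3) L)) ∧ algebraMap k L p = pz z1 ∧
      algebraMap k L q = qz z1 ∧ (m : MQ L a b) * z = toMQ z1 * (m : MQ L a b) ∧
      z ^ 3 = algebraMap k L 0 • z ^ 2 + algebraMap k L (-p) • z + algebraMap k L (-q) • 1 ∧
      (∀ q1 q0 : k, z ^ 2 ≠ algebraMap k L q1 • z + algebraMap k L q0 • 1) ∧
      InV v ∧ InV x ∧ InV y ∧ mat x = z * mat v ∧ mat y = z * mat x ∧ cub v ≠ 0 ∧
      InV (h⁻¹ v) ∧ InV (h⁻¹ x) ∧ InV (h⁻¹ y) ∧
      ph ρ lam v = t0 • v + t1 • x + t2 • y := by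
  obtain ⟨z, p2, p1, p0, v, x, y, hz, hp, hq, hv, hx, hy, hxz, hyz, hcv, h0, h1, h2, hph⟩ := hg
  have hsc : sc L (0 : Qt a b) = 0 := by rw [sc_eq, map_zero]
  obtain ⟨m, z0, hm, -, hz0, hz0k, hmz⟩ := exists_conj_D H hz hp hq 0 (by
    rw [hsc, mul_zero, zero_mul])
  obtain ⟨t, ht⟩ : ∃ t : k, algebraMap k L t = z0.trace / 3 := by
    apply H.fix
    rw [map_div₀, D0_trace hz0, map_ofNat]
  obtain ⟨z1, hz1⟩ : ∃ z1, z1 = z0 - algebraMap k L t • (1 : Matrix (Fin 3) (Fin 3) L) :=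
    ⟨_, rfl⟩
  obtain ⟨zt, hzt⟩ : ∃ zt, zt = z - algebraMap k L t • (1 : MQ L a b) := ⟨_, rfl⟩
  have hz1D : InD0 ρ lam z1 := by
    rw [hz1]
    exact D0_sub hz0 (D0_smul (ρ.commutes t) D0_one)
  have htr : z1.trace = 0 := by
    rw [hz1, Matrix.trace_sub, Matrix.trace_smul, Matrix.trace_one, ht, Fintype.card_fin,
      smul_eq_mul]
    push_cast
    ring
  have hz1k : ∀ s : L, z1 ≠ s • (1 : Matrix (Fin 3) (Fin 3) L) := by
    intro s hs
    apply hz0k (s + algebraMap k L t)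
    rw [add_smul, ← hs, hz1, sub_add_cancel]
  obtain ⟨p, hpz⟩ := exists_pz H hz1D
  obtain ⟨q, hqz⟩ := exists_qz H hz1D
  have hmt : (m : MQ L a b) * zt = toMQ z1 * (m : MQ L a b) := by
    rw [hzt, hz1, toMQ_sub, toMQ_smul, toMQ_one, mul_sub, sub_mul, hmz, smul_mul_assoc, one_mul,
      mul_smul_comm, mul_one]
  have hztD : InD ρ lam zt := by
    have e1 : zt = ((m⁻¹ : (MQ L a b)ˣ) : MQ L a b) * (toMQ z1 * (m : MQ L a b)) := by
      rw [← hmt, ← mul_assoc, Units.inv_mul, one_mul]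
    rw [e1]
    exact (InD.inv' hm).mul ((InD0_toMQ.2 hz1D).mul hm)
  have hcube : zt ^ 3 = algebraMap k L 0 • zt ^ 2 + algebraMap k L (-p) • zt +
      algebraMap k L (-q) • 1 := by
    refine m.isUnit.mul_left_cancel ?_
    have e1 : (m : MQ L a b) * zt ^ 3 = toMQ (z1 * z1 * z1) * (m : MQ L a b) := by
      have e2 : (m : MQ L a b) * zt ^ 3 = (m : MQ L a b) * zt * zt * zt := by
        simp only [pow_succ, pow_zero, one_mul, mul_assoc]
      rw [e2, hmt, mul_assoc (toMQ z1) _ zt, hmt, mul_assoc (toMQ z1) _ zt,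
        mul_assoc (toMQ z1) _ zt, hmt, toMQ_mul, toMQ_mul]
      simp only [mul_assoc]
    rw [e1, z_cube htr, toMQ_sub, toMQ_neg, toMQ_smul, toMQ_smul, toMQ_one, map_zero, zero_smul,
      zero_add, map_neg, map_neg, hpz, hqz, mul_add, mul_smul_comm, mul_smul_comm, hmt, sub_mul,
      neg_mul, smul_mul_assoc, smul_mul_assoc, mul_one, one_mul, neg_smul, neg_smul,
      sub_eq_add_neg]
  have hquad : ∀ q1 q0 : k, zt ^ 2 ≠ algebraMap k L q1 • zt + algebraMap k L q0 • 1 := by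
    intro q1 q0 h3
    apply hq (q1 + 2 * t) (q0 - q1 * t - t ^ 2)
    have e1 : z = zt + algebraMap k L t • (1 : MQ L a b) := by rw [hzt, sub_add_cancel]
    have e2 : z ^ 2 = zt ^ 2 + (2 * algebraMap k L t) • zt +
        (algebraMap k L t ^ 2) • (1 : MQ L a b) := by
      rw [e1, pow_two, pow_two]
      simp only [add_mul, mul_add, smul_mul_assoc, mul_smul_comm, one_mul, mul_one]
      module
    rw [e2, h3, e1]
    simp only [map_add, map_sub, map_mul, map_pow, map_ofNat]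
    module
  have hxt : mat (x - algebraMap k L t • v) = zt * mat v := by
    rw [mat_sub', H64.mat_smul, hxz, hzt, sub_mul, smul_mul_assoc, one_mul]
  have hyt : mat (y - (2 * algebraMap k L t) • x + (algebraMap k L t ^ 2) • v) =
      zt * mat (x - algebraMap k L t • v) := by
    rw [H64.mat_add, mat_sub', mat_sub', H64.mat_smul, H64.mat_smul, H64.mat_smul, hyz, hxz, hzt]
    simp only [sub_mul, mul_sub, smul_mul_assoc, mul_smul_comm, one_mul]
    module
  have hvs : v ∈ Submodule.span L {v, x, y} := Submodule.subset_span (by simp)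
  obtain ⟨t0, t1, t2, hts⟩ := Submodule.mem_span_triple.1 (hph v hvs)
  have hx' : InV x := hx
  have hy' : InV y := hy
  have hv' : InV v := hv
  have h0' : InV (h⁻¹ v) := h0
  have h1' : InV (h⁻¹ x) := h1
  have h2' : InV (h⁻¹ y) := h2
  refine ⟨zt, m, z1, p, q, v, x - algebraMap k L t • v,
    y - (2 * algebraMap k L t) • x + (algebraMap k L t ^ 2) • v,
    t0 + t1 * algebraMap k L t + t2 * algebraMap k L t ^ 2,
    t1 + 2 * algebraMap k L t * t2, t2, hztD, hm, hz1D, htr, hz1k, hpz, hqz, hmt, hcube, hquad,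
    hv', hx'.sub (hv'.smul _), (hy'.sub (hx'.smul _)).add (hv'.smul _), hxt, hyt, hcv, h0',
    ?_, ?_, ?_⟩
  · rw [map_sub, map_smul]
    exact h1'.sub (h0'.smul _)
  · rw [map_add, map_sub, map_smul, map_smul]
    exact (h2'.sub (h1'.smul _)).add (h0'.smul _)
  · rw [← hts]
    module

end nf

end Vale.Agent.P011.E6I
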