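import Vale.Agent.P011.E6I.H553.Tr
import Vale.Agent.P011.E6I.Frm
import Vale.Agent.P011.E6I.Bas0

/-!
Transport of a frame by an element of `GI`.
-/

open Matrix

namespace Vale.Agent.P011.E6I

open Vale.Agent.P011.MPQ Vale.Agent.P011.D4 Vale.Agent.P011.D4.Oct Vale.Agent.P011.E6
open Vale.Agent.P011.E6.Alb

section unit

variable {F : Type} [Field F] [NeZero (2 : F)] {a b c : Fˣ}

theorem mat_adj_mul {x : Alb a b c} (hx : InV x) (hc : cub x ≠ 0) :
    mat (adj x) * mat x = cub x • (1 : Matrix (Fin 3) (Fin 3) (Qt a b)) := by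
  have h1 := mat_mul_adj hx.adj
  rw [adj_adj, cub_adj, H64.mat_smul, mul_smul_comm, sq, mul_smul] at h1
  exact smul_right_injective _ hc h1

omit [NeZero (2 : F)] in
theorem isUnit_of_mul_smul {n : Type} [Fintype n] [DecidableEq n] {D : Type} [Ring D]
    [Algebra F D] {m m' : Matrix n n D} {t : F} (ht : t ≠ 0)
    (h1 : m * m' = t • (1 : Matrix n n D)) (h2 : m' * m = t • (1 : Matrix n n D)) : IsUnit m :=
  ⟨⟨m, t⁻¹ • m', by rw [Matrix.mul_smul, h1, smul_smul, inv_mul_cancel₀ ht, one_smul],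
    by rw [Matrix.smul_mul, h2, smul_smul, inv_mul_cancel₀ ht, one_smul]⟩, rfl⟩

theorem isUnit_mat {x : Alb a b c} (hx : InV x) (hc : cub x ≠ 0) : IsUnit (mat x) :=
  isUnit_of_mul_smul hc (mat_mul_adj hx) (mat_adj_mul hx hc)

/-- An element whose matrix is invertible has a cubic norm different from zero. -/
theorem cub_ne_zero_of_isUnit {x : Alb a b c} (hx : InV x) (hu : IsUnit (mat x)) :
    cub x ≠ 0 := by
  intro h0
  have h1 : adj x = 0 := by
    apply eq_of_mat hx.adj ⟨rfl, rfl, rfl⟩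
    have h2 := mat_mul_adj hx
    rw [h0, zero_smul] at h2
    have h3 : mat (0 : Alb a b c) = 0 := by
      have h4 := H64.mat_smul (0 : F) (0 : Alb a b c)
      rwa [zero_smul, zero_smul] at h4
    rw [h3]
    obtain ⟨u, hu⟩ := hu
    rw [← hu] at h2
    have h5 := congrArg (fun m => ((u⁻¹ : (Matrix (Fin 3) (Fin 3) (Qt a b))ˣ) :
      Matrix (Fin 3) (Fin 3) (Qt a b)) * m) h2
    simpa using h5
  have h2 : ∀ y : Alb a b c, InV y → cross x y = 0 := by
    intro y hy
    apply eq_of_mat (hx.cross hy) ⟨rfl, rfl, rfl⟩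
    have h3 := mat_cross_add hx hy
    have h4 : mat (0 : Alb a b c) = 0 := by
      have h4 := H64.mat_smul (0 : F) (0 : Alb a b c)
      rwa [zero_smul, zero_smul] at h4
    have h6 : tf (0 : Alb a b c) y = 0 := by
      have h7 := tf_smul_left (0 : F) (0 : Alb a b c) y
      rwa [zero_smul, zero_mul] at h7
    rw [h1, h4, mul_zero, zero_add, h6, zero_smul] at h3
    rw [h4]
    obtain ⟨u, hu⟩ := hu
    rw [← hu] at h3
    have h5 := congrArg (fun m => ((u⁻¹ : (Matrix (Fin 3) (Fin 3) (Qt a b))ˣ) :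
      Matrix (Fin 3) (Fin 3) (Qt a b)) * m) h3
    simpa using h5
  have e1' := h2 e1 ⟨rfl, rfl, rfl⟩
  have e2' := h2 e2 ⟨rfl, rfl, rfl⟩
  have e3' := h2 e3 ⟨rfl, rfl, rfl⟩
  have k1 := congrArg Alb.d2 e1'
  have k2 := congrArg Alb.d3 e1'
  have k3 := congrArg Alb.x1 e1'
  have k4 := congrArg Alb.d3 e2'
  have k5 := congrArg Alb.x2 e2'
  have k6 := congrArg Alb.x3 e3'
  simp [Alb.cross, e1, e2, e3] at k1 k2 k3 k4 k5 k6
  have hx0 : x = 0 := by
    apply Alb.ext <;> simp [*]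
  have h3 : mat (0 : Alb a b c) = 0 := by
    have h4 := H64.mat_smul (0 : F) (0 : Alb a b c)
    rwa [zero_smul, zero_smul] at h4
  rw [hx0, h3] at hu
  exact not_isUnit_zero hu

end unit

section pull0

variable {k L : Type} [Field k] [Field L] [Algebra k L]
  {ρ : L ≃ₐ[k] L} {lam : kˣ} {a b c : kˣ}

theorem isUnit_map {m : MQ L a b} (hm : IsUnit m) : IsUnit (m.map (qmap ρ)) := by
  obtain ⟨u, rfl⟩ := hm
  exact ⟨H64.umap ρ u, rfl⟩

theorem isUnit_u : IsUnit (toMQ (u0 L lam) : MQ L a b) := ⟨uU L lam, rfl⟩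

theorem isUnit_uH : IsUnit (toMQ (u0 L lam) : MQ L a b)ᴴ := isUnit_u.star

/-- The matrix `u` commutes with the elements of `D ⊗ Q` up to the automorphism. -/
theorem ph_of_mat {z : MQ L a b} (hz : InD ρ lam z) {v x : AlbL L a b c}
    (hx : mat x = z * mat v) : mat (ph ρ lam x) = z * mat (ph ρ lam v) := by
  rw [mat_ph, mat_ph, hx, H64.map_mul_qmap, Matrix.mul_smul]
  congr 1
  rw [← Matrix.mul_assoc (toMQ (u0 L lam)), ← (show z * toMQ (u0 L lam) = _ from hz)]
  simp only [Matrix.mul_assoc]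

theorem inD_of_ph {z : MQ L a b} {v x : AlbL L a b c} (hv : IsUnit (mat v))
    (hx : mat x = z * mat v) (h : mat (ph ρ lam x) = z * mat (ph ρ lam v)) : InD ρ lam z := by
  rw [mat_ph, mat_ph, hx, H64.map_mul_qmap, Matrix.mul_smul] at h
  have h1 := smul_right_injective _ (up L lam).ne_zero h
  have hT : IsUnit ((mat v).map (qmap ρ) * (toMQ (u0 L lam) : MQ L a b)ᴴ) :=
    (isUnit_map hv).mul isUnit_uH
  refine hT.mul_right_cancel (a := z * toMQ (u0 L lam)) ?_
  simp only [Matrix.mul_assoc] at h1 ⊢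
  exact h1.symm

theorem InV.ph {x : AlbL L a b c} (hx : InV x) : InV (ph ρ lam x) := by
  obtain ⟨h1, h2, h3⟩ := hx
  have e : qmap ρ (0 : Qt (up L a) (up L b)) = 0 := qmap_zero ρ
  refine ⟨?_, ?_, ?_⟩
  · change (up L lam : L) • qmap ρ x.x3.snd = 0
    rw [h3, e, smul_zero]
  · change qmap ρ x.x1.snd = 0
    rw [h1, e]
  · change qmap ρ x.x2.snd = 0
    rw [h2, e]

theorem eq_of_mul_mat {z z' : MQ L a b} {v : AlbL L a b c} (hv : IsUnit (mat v))
    (h : z * mat v = z' * mat v) : z = z' := hv.mul_right_cancel h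

end pull0

section pull

variable {k L : Type} [Field k] [NumberField k] [Field L] [NumberField L] [Algebra k L]
  {ρ : L ≃ₐ[k] L} {lam : kˣ} {a b c : kˣ}

/-- **Transport of a frame.** -/
theorem pull (H : Hyp ρ lam a b c) {h : AlbL L a b c ≃ₗ[L] AlbL L a b c}
    (hh : h ∈ GI ρ lam a b c) {z : MQ L a b} {p2 p1 p0 : k} {v x y : AlbL L a b c}
    (hz : InD ρ lam z)
    (hp : z ^ 3 = algebraMap k L p2 • z ^ 2 + algebraMap k L p1 • z + algebraMap k L p0 • 1)
    (hq : ∀ q1 q0 : k, z ^ 2 ≠ algebraMap k L q1 • z + algebraMap k L q0 • 1)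
    (hv : InV v) (hx : InV x) (hy : InV y) (hxz : mat x = z * mat v) (hyz : mat y = z * mat x)
    (hcv : cub v ≠ 0) (h0 : InV (h v)) (h1 : InV (h x)) (h2 : InV (h y))
    {t0 t1 t2 : L} (ht : ph ρ lam v = t0 • v + t1 • x + t2 • y) :
    ∃ z' : MQ L a b, InD ρ lam z' ∧
      z' ^ 3 = algebraMap k L p2 • z' ^ 2 + algebraMap k L p1 • z' + algebraMap k L p0 • 1 ∧
      (∀ q1 q0 : k, z' ^ 2 ≠ algebraMap k L q1 • z' + algebraMap k L q0 • 1) ∧
      mat (h x) = z' * mat (h v) ∧ mat (h y) = z' * mat (h x) := by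
  have hc : ∀ x, cub (h x) = cub x := hh.1
  have hph : ∀ x, h (ph ρ lam x) = ph ρ lam (h x) := hh.2
  have hz0 : z ≠ 0 := by
    rintro rfl
    exact hq 0 0 (by simp)
  have hzu : IsUnit z := isUnit_of_inD H hz hz0
  have hvu : IsUnit (mat v) := isUnit_mat hv hcv
  have hxu : IsUnit (mat x) := by rw [hxz]; exact hzu.mul hvu
  have hcx : cub x ≠ 0 := cub_ne_zero_of_isUnit hx hxu
  have hcw : cub (h v) ≠ 0 := by rw [hc]; exact hcv
  have hcx' : cub (h x) ≠ 0 := by rw [hc]; exact hcx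
  have hwu : IsUnit (mat (h v)) := isUnit_mat h0 hcw
  -- the new element
  obtain ⟨z', hz'⟩ : ∃ z' : MQ L a b, mat (h x) = z' * mat (h v) := by
    obtain ⟨u, hu⟩ := hwu
    exact ⟨mat (h x) * ((u⁻¹ : (MQ L a b)ˣ) : MQ L a b), by
      rw [← hu, mul_assoc, Units.inv_mul, mul_one]⟩
  have hyz' : mat (h y) = z' * mat (h x) := by
    have e1 : sqv v x = cub v • y := by
      apply eq_of_mat (hv.sqv hx) (hy.smul _)
      rw [mat_sqv hv hx hcx hxz, H64.mat_smul, hyz]
    have e2 := sqv_map hc v x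
    rw [e1, map_smul] at e2
    have e3 := mat_sqv h0 h1 hcx' hz'
    rw [e2, H64.mat_smul, hc] at e3
    exact smul_right_injective _ hcv e3
  have hcube : mat (h x) = z' * mat (h v) := hz'
  have e4 : cuv v x = cub v ^ 2 • (algebraMap k L p2 • y + algebraMap k L p1 • x +
      algebraMap k L p0 • v) := by
    apply eq_of_mat (hv.cuv hx) ((((hy.smul _).add (hx.smul _)).add (hv.smul _)).smul _)
    rw [mat_cuv hv hx hcv hcx hxz, H64.mat_smul, H64.mat_add, H64.mat_add, H64.mat_smul,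
      H64.mat_smul, H64.mat_smul, ← hyz]
    congr 1
    have e5 : z * mat y = z ^ 3 * mat v := by
      rw [hyz, hxz, pow_succ, pow_two]
      simp only [mul_assoc]
    rw [e5, hp, hyz, hxz, pow_two]
    simp only [add_mul, smul_mul_assoc, one_mul, mul_assoc]
  have e6 : mat (h (algebraMap k L p2 • y + algebraMap k L p1 • x + algebraMap k L p0 • v)) =
      z' * (z' * mat (h x)) := by
    have e7 := cuv_map hc v x
    rw [e4, map_smul] at e7
    have e8 := mat_cuv h0 h1 hcw hcx' hz'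
    rw [e7, H64.mat_smul, hc] at e8
    exact smul_right_injective _ (pow_ne_zero 2 hcv) e8
  have hp' : z' ^ 3 = algebraMap k L p2 • z' ^ 2 + algebraMap k L p1 • z' +
      algebraMap k L p0 • 1 := by
    apply eq_of_mul_mat hwu
    rw [map_add, map_add, map_smul, map_smul, map_smul, H64.mat_add, H64.mat_add, H64.mat_smul,
      H64.mat_smul, H64.mat_smul, hyz', hz'] at e6
    simp only [add_mul, smul_mul_assoc, one_mul, pow_succ, pow_zero, mul_assoc] at e6 ⊢
    exact e6.symm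
  have hq' : ∀ q1 q0 : k, z' ^ 2 ≠ algebraMap k L q1 • z' + algebraMap k L q0 • 1 := by
    intro q1 q0 h3
    apply hq q1 q0
    apply eq_of_mul_mat hvu
    have e9 : h y = h (algebraMap k L q1 • x + algebraMap k L q0 • v) := by
      rw [map_add, map_smul, map_smul]
      apply eq_of_mat h2 ((h1.smul _).add (h0.smul _))
      rw [H64.mat_add, H64.mat_smul, H64.mat_smul, hyz', hz', ← mul_assoc, ← pow_two, h3]
      simp only [add_mul, smul_mul_assoc, one_mul]
    have e10 := h.injective e9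
    rw [pow_two, mul_assoc, ← hxz, ← hyz, e10, H64.mat_add, H64.mat_smul, H64.mat_smul, hxz]
    simp only [add_mul, smul_mul_assoc, one_mul]
  refine ⟨z', ?_, hp', hq', hz', hyz'⟩
  -- the element belongs to `D ⊗ Q`
  have hphx : ph ρ lam x = t0 • x + t1 • y + t2 • (algebraMap k L p2 • y +
      algebraMap k L p1 • x + algebraMap k L p0 • v) := by
    apply eq_of_mat hx.ph (((hx.smul _).add (hy.smul _)).add
      ((((hy.smul _).add (hx.smul _)).add (hv.smul _)).smul _))
    rw [ph_of_mat hz hxz, ht]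
    simp only [H64.mat_add, H64.mat_smul, mul_add, mul_smul_comm]
    rw [← hxz, ← hyz]
    have e5 : z * mat y = z ^ 3 * mat v := by
      rw [hyz, hxz, pow_succ, pow_two]
      simp only [mul_assoc]
    rw [e5, hp, hyz, hxz, pow_two]
    simp only [add_mul, smul_mul_assoc, one_mul, mul_assoc]
  apply inD_of_ph hwu hz'
  rw [← hph, ← hph, hphx, ht]
  obtain ⟨s, hs⟩ : ∃ s, s = algebraMap k L p2 • y + algebraMap k L p1 • x + algebraMap k L p0 • v :=
    ⟨_, rfl⟩
  rw [← hs] at e6 ⊢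
  simp only [map_add, map_smul, H64.mat_add, H64.mat_smul, mul_add, mul_smul_comm]
  rw [e6, ← hz', hyz']

end pull

end Vale.Agent.P011.E6I
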