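import Vale.Agent.P011.E6I.H553.Fra
import Vale.Agent.P011.E6I.H319.Sign
import Vale.Agent.P011.E6I.H714.Neg

/-!
The signs of the multiplier of a frame.
-/

open Matrix

namespace Vale.Agent.P011.E6I

open Vale.Agent.P011.MPQ Vale.Agent.P011.D4 Vale.Agent.P011.D4.Oct Vale.Agent.P011.E6
open Vale.Agent.P011.E6.Alb

section field

variable {K : Type} [Field K]

theorem poly_sym {M S : Matrix (Fin 3) (Fin 3) K} (hS : M * S = S * Mᵀ) (x0 x1 x2 : K) :
    (x0 • (1 : Matrix (Fin 3) (Fin 3) K) + x1 • M + x2 • M ^ 2) * S =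
      S * (x0 • (1 : Matrix (Fin 3) (Fin 3) K) + x1 • M + x2 • M ^ 2)ᵀ := by
  simp only [pow_two, Matrix.add_mul, Matrix.mul_add, Matrix.smul_mul, Matrix.mul_smul,
    Matrix.one_mul, Matrix.mul_one, Matrix.transpose_add, Matrix.transpose_smul,
    Matrix.transpose_one, Matrix.transpose_mul]
  rw [hS, Matrix.mul_assoc M M S, hS, ← Matrix.mul_assoc M S, hS, Matrix.mul_assoc S]

theorem poly_comm (M : Matrix (Fin 3) (Fin 3) K) (x0 x1 x2 : K) :
    (x0 • (1 : Matrix (Fin 3) (Fin 3) K) + x1 • M + x2 • M ^ 2) * M =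
      M * (x0 • (1 : Matrix (Fin 3) (Fin 3) K) + x1 • M + x2 • M ^ 2) := by
  simp only [pow_two, Matrix.add_mul, Matrix.mul_add, Matrix.smul_mul, Matrix.mul_smul,
    Matrix.one_mul, Matrix.mul_one, Matrix.mul_assoc]

theorem poly_sym_transpose {M S : Matrix (Fin 3) (Fin 3) K} (hS : M * S = S * Mᵀ) (hT : Sᵀ = S)
    (x0 x1 x2 : K) :
    ((x0 • (1 : Matrix (Fin 3) (Fin 3) K) + x1 • M + x2 • M ^ 2) * S)ᵀ =
      (x0 • (1 : Matrix (Fin 3) (Fin 3) K) + x1 • M + x2 • M ^ 2) * S := by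
  rw [Matrix.transpose_mul, hT, poly_sym hS]

theorem poly_mul_of {M z C : Matrix (Fin 3) (Fin 3) K} (h : z * C = C * M) (x0 x1 x2 : K) :
    (x0 • (1 : Matrix (Fin 3) (Fin 3) K) + x1 • z + x2 • z ^ 2) * C =
      C * (x0 • (1 : Matrix (Fin 3) (Fin 3) K) + x1 • M + x2 • M ^ 2) := by
  simp only [pow_two, Matrix.add_mul, Matrix.mul_add, Matrix.smul_mul, Matrix.mul_smul,
    Matrix.one_mul, Matrix.mul_one]
  rw [h, Matrix.mul_assoc z z C, h, ← Matrix.mul_assoc z C, h, Matrix.mul_assoc C]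

theorem cmpS_transpose (p : K) : (cmpS p)ᵀ = cmpS p := by
  ext i j
  fin_cases i <;> fin_cases j <;> simp [cmpS]

end field

section nf

variable {k L : Type} [Field k] [NumberField k] [Field L] [NumberField L] [Algebra k L]
  {ρ : L ≃ₐ[k] L} {lam : kˣ} {a b c : kˣ}

/-- The signs of the multiplier. -/
theorem sgn_of (H : Hyp ρ lam a b c) (hgood : GoodQt a b c)
    {z : Matrix (Fin 3) (Fin 3) L} (h0 : z.trace = 0) (hd : dz z ≠ 0) {p q : k}
    (hp : algebraMap k L p = pz z) (hq : algebraMap k L q = qz z)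
    {h : AlbL L a b c ≃ₗ[L] AlbL L a b c} {μ : L} (hcub : ∀ x, cub (h x) = μ * cub x)
    (hμ : ∀ w : L →+* ℝ, w (up L a : L) < 0 → w (up L b : L) < 0 → 0 < w μ) {y0 y1 y2 : k}
    (hY : ∀ S : Matrix (Fin 3) (Fin 3) L, z * S = S * zᵀ →
      h (ofF S) = ofF ((algebraMap k L y0 • (1 : Matrix (Fin 3) (Fin 3) L) +
        algebraMap k L y1 • z + algebraMap k L y2 • z ^ 2) * S))
    (τ : k →+* ℝ) (r : ℝ) (ha : τ a < 0) (hb : τ b < 0)
    (hr : r ^ 3 + τ 0 * r ^ 2 + τ p * r + τ q = 0) :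
    0 < τ y0 + τ y1 * r + τ y2 * r ^ 2 := by
  obtain ⟨w, rfl⟩ := exists_ext_cubic H.h3 τ
  obtain ⟨-, -, hc⟩ := hgood _ ha hb
  have hdef : DefAt w (up L a) (up L b) (up L c) := DefAt.of_neg ha hb hc
  obtain ⟨v, hv⟩ := exists_cyc h0 hd
  obtain ⟨C, hC⟩ : ∃ C, C = cyc z v := ⟨_, rfl⟩
  have hzC : z * C = C * cmp (pz z) (qz z) := by rw [hC, z_mul_cyc h0]
  rw [← hC] at hv
  let E : AlbL L a b c ≃ₗ[L] AlbL L a b c := cjE C hv
  have hEcub : ∀ x : AlbL L a b c, cub (E x) = C.det ^ 2 * cub x := cub_cj C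
  have hEcub' : ∀ x : AlbL L a b c, C.det ^ 2 * cub (E.symm x) = cub x := fun x => by
    rw [← hEcub, LinearEquiv.apply_symm_apply]
  have hM : cmp (pz z) (qz z) = !![0, 0, -qz z; 1, 0, -pz z; 0, 1, -(0 : L)] := by
    rw [cmp, neg_zero]
  have hsep : ∀ r : ℝ, r ^ 3 + w 0 * r ^ 2 + w (pz z) * r + w (qz z) = 0 →
      3 * r ^ 2 + 2 * w 0 * r + w (pz z) ≠ 0 := by
    intro r hr hr'
    apply hd
    apply (map_eq_zero w).1
    rw [map_zero] at hr hr'
    have e1 : w (pz z) = -3 * r ^ 2 := by linear_combination hr'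
    have e2 : w (qz z) = 2 * r ^ 3 := by
      rw [e1] at hr
      linear_combination hr
    rw [dz, map_sub, map_mul, map_mul, map_pow, map_pow, e1, e2, map_neg, map_ofNat, map_ofNat]
    ring
  have key := H319.sign_frame w hdef 0 (pz z) (qz z) hM (S0 := cmpS (pz z)) rfl hsep
    (E.trans (h.trans E.symm)) (hμ w ha hb) (fun x => by
      have e1 : C.det ^ 2 ≠ 0 := pow_ne_zero 2 hv
      apply mul_left_cancel₀ e1
      rw [LinearEquiv.trans_apply, LinearEquiv.trans_apply, hEcub', hcub, hEcub]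
      ring) (y0 := algebraMap k L y0) (y1 := algebraMap k L y1) (y2 := algebraMap k L y2)
    (fun x0 x1 x2 => by
      obtain ⟨M, hMd⟩ : ∃ M, M = cmp (pz z) (qz z) := ⟨_, rfl⟩
      have hMS : M * cmpS (pz z) = cmpS (pz z) * Mᵀ := by rw [hMd, cmp_sym]
      rw [← hMd] at hzC ⊢
      obtain ⟨S', hS'⟩ : ∃ S', S' = (x0 • (1 : Matrix (Fin 3) (Fin 3) L) + x1 • M +
        x2 • M ^ 2) * cmpS (pz z) := ⟨_, rfl⟩
      have hT' : S'ᵀ = S' := by rw [hS', poly_sym_transpose hMS (cmpS_transpose _)]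
      have hMS' : M * S' = S' * Mᵀ := by rw [hS', comm_mul_sym (poly_comm M x0 x1 x2) hMS]
      rw [← hS', LinearEquiv.trans_apply, LinearEquiv.trans_apply, LinearEquiv.symm_apply_eq]
      change h (cj C (ofF S')) = cj C (ofF _)
      rw [cj_ofF _ _ hT', cj_ofF _ _ (poly_sym_transpose hMS' hT' _ _ _), hY, ← Matrix.mul_assoc,
        ← Matrix.mul_assoc, ← Matrix.mul_assoc, poly_mul_of hzC]
      rw [← Matrix.mul_assoc, ← Matrix.mul_assoc, hzC, Matrix.mul_assoc C M, hMS',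
        Matrix.mul_assoc _ _ zᵀ, ← Matrix.transpose_mul, hzC, Matrix.transpose_mul]
      simp only [Matrix.mul_assoc]) (r := r) (by
      rw [← hp, ← hq]
      rw [map_zero] at hr ⊢
      exact hr)
  exact key

end nf

end Vale.Agent.P011.E6I
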