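import Vale.Agent.P011.E6I.H369.Dk
import Vale.Agent.P011.E6I.H553.Pull

/-!
Symmetric matrices which intertwine a matrix `z` of degree three and its transpose.
-/

open Matrix

namespace Vale.Agent.P011.E6I

open Vale.Agent.P011.MPQ Vale.Agent.P011.D4 Vale.Agent.P011.D4.Oct Vale.Agent.P011.E6
open Vale.Agent.P011.E6.Alb

section field

variable {K : Type} [Field K] [CharZero K] {a b c : Kˣ} {z : Matrix (Fin 3) (Fin 3) K}

/-- A matrix which intertwines `z` and its transpose is symmetric. -/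
theorem sym_of_comm (h0 : z.trace = 0) (hd : dz z ≠ 0) {X : Matrix (Fin 3) (Fin 3) K}
    (hX : z * X = X * zᵀ) : Xᵀ = X := by
  obtain ⟨S, hS, hzS, hdS⟩ := exists_sym h0 hd
  have hu : IsUnit S.det := isUnit_iff_ne_zero.2 hdS
  have h1 : S⁻¹ * z = zᵀ * S⁻¹ := by
    have h2 : S⁻¹ * (z * S) * S⁻¹ = S⁻¹ * (S * zᵀ) * S⁻¹ := by rw [hzS]
    rw [← Matrix.mul_assoc, Matrix.mul_assoc _ S, Matrix.mul_nonsing_inv _ hu, Matrix.mul_one,
      ← Matrix.mul_assoc S⁻¹ S, Matrix.nonsing_inv_mul _ hu, Matrix.one_mul] at h2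
    exact h2
  have h2 : X * S⁻¹ * z = z * (X * S⁻¹) := by
    rw [Matrix.mul_assoc, h1, ← Matrix.mul_assoc, ← hX, Matrix.mul_assoc]
  have h3 := comm_sym h0 hd h2 hzS
  have h4 : X * S⁻¹ * S = X := by
    rw [Matrix.mul_assoc, Matrix.nonsing_inv_mul _ hu, Matrix.mul_one]
  rw [h4] at h3
  have h5 := congrArg Matrix.transpose h3
  rw [Matrix.transpose_mul, Matrix.transpose_transpose, hS, h4] at h5
  exact h5

omit [CharZero K] in
/-- The quotient of two such matrices. -/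
theorem exists_quot {X T : Matrix (Fin 3) (Fin 3) K}
    (hX : z * X = X * zᵀ) (hT : z * T = T * zᵀ) (hdT : T.det ≠ 0) :
    ∃ Y : Matrix (Fin 3) (Fin 3) K, Y * z = z * Y ∧ X = Y * T := by
  have hu : IsUnit T.det := isUnit_iff_ne_zero.2 hdT
  have h1 : T⁻¹ * z = zᵀ * T⁻¹ := by
    have h2 : T⁻¹ * (z * T) * T⁻¹ = T⁻¹ * (T * zᵀ) * T⁻¹ := by rw [hT]
    rw [← Matrix.mul_assoc, Matrix.mul_assoc _ T, Matrix.mul_nonsing_inv _ hu, Matrix.mul_one,
      ← Matrix.mul_assoc T⁻¹ T, Matrix.nonsing_inv_mul _ hu, Matrix.one_mul] at h2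
    exact h2
  refine ⟨X * T⁻¹, ?_, ?_⟩
  · rw [Matrix.mul_assoc, h1, ← Matrix.mul_assoc, ← hX, Matrix.mul_assoc]
  · rw [Matrix.mul_assoc, Matrix.nonsing_inv_mul _ hu, Matrix.mul_one]

omit [CharZero K] in
theorem co_isHermitian {S : Matrix (Fin 3) (Fin 3) (Qt a b)} (hS : S.IsHermitian) :
    (co 0 S)ᵀ = co 0 S ∧ (co 1 S)ᵀ = -co 1 S ∧ (co 2 S)ᵀ = -co 2 S ∧
      (co 3 S)ᵀ = -co 3 S := by
  refine ⟨?_, ?_, ?_, ?_⟩
  · have h := congrArg (co 0) hS.eq
    rwa [co_ct, co_star0] at h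
  · have h := congrArg (co 1) hS.eq
    rw [co_ct, co_star1, Matrix.transpose_neg] at h
    exact neg_eq_iff_eq_neg.1 h
  · have h := congrArg (co 2) hS.eq
    rw [co_ct, co_star2, Matrix.transpose_neg] at h
    exact neg_eq_iff_eq_neg.1 h
  · have h := congrArg (co 3) hS.eq
    rw [co_ct, co_star3, Matrix.transpose_neg] at h
    exact neg_eq_iff_eq_neg.1 h

theorem eq_zero_of_neg {X : Matrix (Fin 3) (Fin 3) K} (h1 : Xᵀ = X) (h2 : Xᵀ = -X) : X = 0 := by
  rw [h1] at h2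
  ext i j
  have h3 := congrFun (congrFun h2 i) j
  rw [Matrix.neg_apply] at h3
  have h4 : (2 : K) * X i j = 0 := by linear_combination h3
  exact (mul_eq_zero.1 h4).resolve_left two_ne_zero

omit [CharZero K] in
theorem tm_ct (z : Matrix (Fin 3) (Fin 3) K) : (tm a b z)ᴴ = tm a b zᵀ := by
  ext i j : 1
  simp only [tm, Matrix.conjTranspose_apply, Matrix.map_apply, Matrix.transpose_apply]
  ext <;> simp

/-- A hermitian matrix which intertwines `z` and its transpose has coefficients in the field. -/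
theorem exists_T (h0 : z.trace = 0) (hd : dz z ≠ 0) {S : Matrix (Fin 3) (Fin 3) (Qt a b)}
    (hS : S.IsHermitian) (hz : tm a b z * S = S * (tm a b z)ᴴ) :
    ∃ T : Matrix (Fin 3) (Fin 3) K, Tᵀ = T ∧ z * T = T * zᵀ ∧ S = tm a b T := by
  have hi : ∀ i, z * co i S = co i S * zᵀ := by
    intro i
    have h := congrArg (co i) hz
    rwa [tm_ct, co_tm_mul, co_mul_tm] at h
  obtain ⟨k0, k1, k2, k3⟩ := co_isHermitian hS
  refine ⟨co 0 S, k0, hi 0, ?_⟩
  apply co_ext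
  intro i
  fin_cases i
  · change co 0 _ = co 0 _
    rw [co_tm0]
  · change co 1 _ = co 1 _
    rw [co_tm1]
    exact eq_zero_of_neg (sym_of_comm h0 hd (hi 1)) k1
  · change co 2 _ = co 2 _
    rw [co_tm2]
    exact eq_zero_of_neg (sym_of_comm h0 hd (hi 2)) k2
  · change co 3 _ = co 3 _
    rw [co_tm3]
    exact eq_zero_of_neg (sym_of_comm h0 hd (hi 3)) k3

omit [CharZero K] in
/-- The matrix of a symmetric matrix. -/
theorem mat_ofF {T : Matrix (Fin 3) (Fin 3) K} (hT : Tᵀ = T) :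
    mat (ofF T : Alb a b c) = tm a b T := by
  have h1 : T 1 0 = T 0 1 := congrFun (congrFun hT 0) 1
  have h2 : T 2 0 = T 0 2 := congrFun (congrFun hT 0) 2
  have h3 : T 2 1 = T 1 2 := congrFun (congrFun hT 1) 2
  ext i j : 1
  fin_cases i <;> fin_cases j <;> ext <;> simp [mat, ofF, tm, h1, h2, h3]

omit [CharZero K] in
theorem inV_ofF (T : Matrix (Fin 3) (Fin 3) K) : InV (ofF T : Alb a b c) := by
  refine ⟨?_, ?_, ?_⟩ <;> simp [ofF]

omit [CharZero K] in
theorem InV.vec {x : Alb a b c} (hx : InV x) : H64.row (Alb.vec x) = 0 := by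
  apply Matrix.ext
  intro i j
  change Alb.vec x j = 0
  fin_cases j
  · exact hx.1
  · exact hx.2.1
  · exact hx.2.2

omit [CharZero K] in
theorem inV_of_vec {x : Alb a b c} (hx : H64.row (Alb.vec x) = 0) : InV x :=
  ⟨congrFun (congrFun hx 0) 0, congrFun (congrFun hx 0) 1, congrFun (congrFun hx 0) 2⟩

omit [CharZero K] in
theorem InV.act {x : Alb a b c} (hx : InV x) (m : (Matrix (Fin 3) (Fin 3) (Qt a b))ˣ)
    (κ : Qt a b) : InV (Alb.act m κ x) := by
  apply inV_of_vec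
  rw [H64.row_vec_act, hx.vec, Matrix.zero_mul, Matrix.mul_zero]

/-- The action on the elements of `V`. -/
theorem act_eq_ofF {x : Alb a b c} (hx : InV x) {m : (Matrix (Fin 3) (Fin 3) (Qt a b))ˣ}
    {T : Matrix (Fin 3) (Fin 3) K} (hT : Tᵀ = T)
    (h : (m : Matrix (Fin 3) (Fin 3) (Qt a b)) * mat x * (m : Matrix (Fin 3) (Fin 3) (Qt a b))ᴴ =
      tm a b T) (κ : Qt a b) : Alb.act m κ x = ofF T := by
  apply eq_of_mat (hx.act m κ) (inV_ofF T)
  rw [mat_act, h, mat_ofF hT]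

end field

end Vale.Agent.P011.E6I
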