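import Vale.Agent.P011.E6I.H553.Jor
import Vale.Agent.P011.E6I.H493.Clo

/-!
The maps preserving the cubic norm are compatible with the squares and the cubes.
-/

open Matrix

namespace Vale.Agent.P011.E6I

open Vale.Agent.P011.MPQ Vale.Agent.P011.D4 Vale.Agent.P011.D4.Oct Vale.Agent.P011.E6
open Vale.Agent.P011.E6.Alb

section tr

variable {F : Type} [Field F] [CharZero F] {a b c : Fˣ} {φ : Alb a b c ≃ₗ[F] Alb a b c}
  (h : ∀ x, cub (φ x) = cub x)

include h

theorem tf_adj_map (x y : Alb a b c) : tf (adj (φ x)) (φ y) = tf (adj x) y := by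
  have h1 := tf_adj_of_cub (φ := φ.toLinearMap) (μ := 1)
    (fun x => by rw [one_mul]; exact h x) x y
  rwa [one_mul] at h1

theorem tf_cross_map' (x y z : Alb a b c) :
    tf (cross (φ x) (φ y)) (φ z) = tf (cross x y) z := by
  have h1 := tf_cross_mapμ (φ := φ) (μ := 1) (fun x => by rw [one_mul, h]) x y z
  rwa [one_mul] at h1

theorem cross_adj_map' (x y : Alb a b c) :
    cross (adj (φ x)) (adj (φ y)) = φ (cross (adj x) (adj y)) := by
  have h1 := cross_adj_map (φ := φ) (μ := 1) (fun x => by rw [one_mul, h]) x y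
  rwa [one_smul] at h1

theorem cross_adj_cross_map (x y z : Alb a b c) :
    cross (adj (φ x)) (cross (φ y) (φ z)) = φ (cross (adj x) (cross y z)) := by
  have h1 := cross_adj_map' h x (y + z)
  rw [map_add, adj_add, adj_add, cross_add_right, cross_add_right, cross_add_right,
    cross_add_right, cross_adj_map' h, cross_adj_map' h, map_add, map_add] at h1
  exact add_left_cancel (add_right_cancel h1)

theorem sqv_map (v x : Alb a b c) : sqv (φ v) (φ x) = φ (sqv v x) := by
  rw [sqv, sqv, map_sub, map_smul, cross_adj_map' h, tf_comm, tf_adj_map h, tf_comm]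

theorem cuv_map (v x : Alb a b c) : cuv (φ v) (φ x) = φ (cuv v x) := by
  have h1 : tf (φ x) (duv (φ v) (φ x)) = tf x (duv v x) := by
    rw [duv, duv, tf_sub_right, tf_sub_right, tf_smul_right, tf_smul_right, tf_smul_right,
      tf_smul_right, tf_adj_map h, tf_comm (φ x) (adj (φ v)), tf_adj_map h, h,
      tf_comm (φ x) (cross _ _), tf_cross_map' h, tf_comm x (adj v), tf_comm x (cross v x)]
  rw [cuv, cuv, h1, map_sub, map_smul]
  congr 1
  rw [duv, duv, cross_sub_right, cross_sub_right, cross_smul_right, cross_smul_right,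
    cross_smul_right, cross_smul_right, map_sub, map_smul, map_smul, tf_adj_map h,
    cross_adj_map' h, cross_adj_cross_map h, h]

end tr

end Vale.Agent.P011.E6I
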